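import Mathlib

/-!
# Planar topology for P198, block B1: continuous logarithms and unicoherence

`PlanarTop.HasLog X` : every nowhere zero continuous function `X → ℂ` has a continuous logarithm.
`PlanarTop.hasLog_of_convex` : convex sets in locally convex spaces have this property.
`PlanarTop.unicoherent` : if `X` is normal and `HasLog X`, then `X` is unicoherent: if `A, B` are
closed preconnected and `A ∪ B = univ` then `A ∩ B` is preconnected.
`PlanarTop.unicoherent_of_convex` : the version for subsets of a closed convex set.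
-/

open Set Topology

namespace P198.PlanarTop

/-- Every nowhere vanishing continuous complex function has a continuous logarithm. -/
def HasLog (X : Type*) [TopologicalSpace X] : Prop :=
  ∀ f : C(X, ℂ), (∀ x, f x ≠ 0) → ∃ F : C(X, ℂ), ∀ x, Complex.exp (F x) = f x

theorem hasLog_of_simplyConnected (X : Type*) [TopologicalSpace X] [SimplyConnectedSpace X]
    [LocallyPathConnectedSpace X] : HasLog X := by
  intro f hf
  obtain ⟨a₀⟩ : Nonempty X := inferInstance
  obtain ⟨F, ⟨-, hF⟩, -⟩ := Complex.isCoveringMapOn_exp.existsUnique_continuousMap_lifts f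
    (a₀ := a₀) (e₀ := Complex.log (f a₀)) (Complex.exp_log (hf a₀)) (fun a => by simpa using hf a)
  exact ⟨F, fun x => congrFun hF x⟩

theorem hasLog_of_isEmpty (X : Type*) [TopologicalSpace X] [IsEmpty X] : HasLog X :=
  fun f _ => ⟨f, fun x => isEmptyElim x⟩

theorem hasLog_of_convex {E : Type*} [AddCommGroup E] [Module ℝ E] [TopologicalSpace E]
    [IsTopologicalAddGroup E] [ContinuousSMul ℝ E] [LocallyConvexSpace ℝ E] {S : Set E}
    (hS : Convex ℝ S) : HasLog S := by
  rcases S.eq_empty_or_nonempty with rfl | hne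
  · exact hasLog_of_isEmpty _
  · have : ContractibleSpace S := hS.contractibleSpace hne
    have : LocallyPathConnectedSpace S := hS.locallyPathConnectedSpace
    exact hasLog_of_simplyConnected _

/-- A continuous integer valued function on a preconnected set is constant. -/
theorem int_const {X : Type*} [TopologicalSpace X] {A : Set X} (hA : IsPreconnected A)
    {φ : X → ℝ} (hφ : ContinuousOn φ A) (hint : ∀ x ∈ A, ∃ n : ℤ, φ x = n) {x y : X}
    (hx : x ∈ A) (hy : y ∈ A) : φ x = φ y := by
  have key : ∀ x ∈ A, ∀ y ∈ A, ¬ φ x < φ y := by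
    intro x hx y hy hlt
    obtain ⟨n, hn⟩ := hint x hx
    obtain ⟨m, hm⟩ := hint y hy
    have himg := hA.image _ hφ
    have hnm : n < m := by
      rw [hn, hm] at hlt
      exact_mod_cast hlt
    have hnm' : (n : ℝ) + 1 ≤ m := by exact_mod_cast hnm
    have hmem : (n : ℝ) + 1 / 2 ∈ φ '' A := by
      refine himg.Icc_subset (mem_image_of_mem _ hx) (mem_image_of_mem _ hy) ?_
      rw [hn, hm]
      constructor <;> linarith
    obtain ⟨z, hz, hz'⟩ := hmem
    obtain ⟨k, hk⟩ := hint z hz
    rw [hk] at hz'
    have h2 : (2 * k : ℝ) = 2 * n + 1 := by linarith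
    have h3 : (2 * k : ℤ) = 2 * n + 1 := by exact_mod_cast h2
    omega
  exact le_antisymm (not_lt.1 (key y hy x hx)) (not_lt.1 (key x hx y hy))

/-- Two continuous logarithms of the same function on a preconnected set differ by a constant. -/
theorem log_diff_const {X : Type*} [TopologicalSpace X] {A : Set X} (hA : IsPreconnected A)
    {F G : X → ℂ} (hF : ContinuousOn F A) (hG : ContinuousOn G A)
    (h : ∀ x ∈ A, Complex.exp (F x) = Complex.exp (G x)) {x y : X} (hx : x ∈ A) (hy : y ∈ A) :
    F x - G x = F y - G y := by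
  have hpi : (2 * Real.pi * Complex.I : ℂ) ≠ 0 := Complex.two_pi_I_ne_zero
  have hc : ContinuousOn (fun x => ((F x - G x) / (2 * Real.pi * Complex.I)).re) A :=
    Complex.continuous_re.comp_continuousOn ((hF.sub hG).div_const _)
  have hint : ∀ x ∈ A, ∃ n : ℤ, F x - G x = n * (2 * Real.pi * Complex.I) := by
    intro x hx
    obtain ⟨n, hn⟩ := Complex.exp_eq_exp_iff_exists_int.1 (h x hx)
    exact ⟨n, by rw [hn]; ring⟩
  have hval : ∀ x ∈ A, ∀ n : ℤ, F x - G x = n * (2 * Real.pi * Complex.I) →
      ((F x - G x) / (2 * Real.pi * Complex.I)).re = n := by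
    intro x _ n hn
    rw [hn, mul_div_cancel_right₀ _ hpi]
    simp
  have := int_const hA hc (fun x hx => by
    obtain ⟨n, hn⟩ := hint x hx
    exact ⟨n, hval x hx n hn⟩) hx hy
  obtain ⟨n, hn⟩ := hint x hx
  obtain ⟨m, hm⟩ := hint y hy
  rw [hval x hx n hn, hval y hy m hm] at this
  have h3 : n = m := by exact_mod_cast this
  rw [hn, hm, h3]

/-- **Unicoherence** of a normal space in which continuous nonvanishing functions have
logarithms. -/
theorem unicoherent {X : Type*} [TopologicalSpace X] [NormalSpace X] (hX : HasLog X)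
    {A B : Set X} (hA : IsClosed A) (hB : IsClosed B) (hAc : IsPreconnected A)
    (hBc : IsPreconnected B) (hAB : A ∪ B = univ) : IsPreconnected (A ∩ B) := by
  rw [isPreconnected_iff_subset_of_fully_disjoint_closed (hA.inter hB)]
  intro P Q hP hQ hcov hdisj
  by_contra hcon
  push Not at hcon
  obtain ⟨h1, h2⟩ := hcon
  -- points `p ∈ (A ∩ B) ∩ P`, `q ∈ (A ∩ B) ∩ Q`
  obtain ⟨q, hqAB, hqP⟩ := not_subset.1 h1
  obtain ⟨p, hpAB, hpQ⟩ := not_subset.1 h2
  have hqQ : q ∈ Q := (hcov hqAB).resolve_left hqP
  have hpP : p ∈ P := (hcov hpAB).resolve_right hpQ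
  obtain ⟨θ, hθ0, hθ1, -⟩ := exists_continuous_zero_one_of_isClosed hP hQ hdisj
  -- the two partial functions
  let gA : X → ℂ := fun x => Complex.exp (Real.pi * θ x * Complex.I)
  let gB : X → ℂ := fun x => Complex.exp (-(Real.pi * θ x * Complex.I))
  have hgA : Continuous gA := by fun_prop
  have hgB : Continuous gB := by fun_prop
  classical
  let f : X → ℂ := A.piecewise gA gB
  have hagree : ∀ x ∈ A, x ∈ B → gA x = gB x := by
    intro x hxA hxB
    rcases hcov ⟨hxA, hxB⟩ with hx | hx
    · simp [gA, gB, hθ0 hx]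
    · have : θ x = 1 := hθ1 hx
      simp only [gA, gB, this]
      rw [Complex.exp_neg]
      simp [Complex.exp_pi_mul_I]
  have hfA : ∀ x ∈ A, f x = gA x := fun x hx => Set.piecewise_eq_of_mem _ _ _ hx
  have hfB : ∀ x ∈ B, f x = gB x := by
    intro x hx
    by_cases hxA : x ∈ A
    · rw [hfA x hxA, hagree x hxA hx]
    · exact Set.piecewise_eq_of_notMem _ _ _ hxA
  have hfc : Continuous f := by
    rw [← continuousOn_univ, ← hAB]
    refine ContinuousOn.union_of_isClosed ?_ ?_ hA hB
    · exact hgA.continuousOn.congr hfA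
    · exact hgB.continuousOn.congr hfB
  have hf0 : ∀ x, f x ≠ 0 := by
    intro x
    by_cases hxA : x ∈ A
    · rw [hfA x hxA]; exact Complex.exp_ne_zero _
    · have hxB : x ∈ B := by
        have : x ∈ A ∪ B := by rw [hAB]; trivial
        exact this.resolve_left hxA
      rw [hfB x hxB]; exact Complex.exp_ne_zero _
  obtain ⟨F, hF⟩ := hX ⟨f, hfc⟩ hf0
  have hlA := log_diff_const hAc (F := F) (G := fun x => Real.pi * θ x * Complex.I)
    F.continuous.continuousOn (by fun_prop) (fun x hx => by rw [hF x]; exact hfA x hx)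
    hpAB.1 hqAB.1
  have hlB := log_diff_const hBc (F := F) (G := fun x => -(Real.pi * θ x * Complex.I))
    F.continuous.continuousOn (by fun_prop) (fun x hx => by rw [hF x]; exact hfB x hx)
    hpAB.2 hqAB.2
  have hp0 : θ p = 0 := hθ0 hpP
  have hq1 : θ q = 1 := hθ1 hqQ
  rw [hp0, hq1] at hlA hlB
  simp only [Complex.ofReal_zero, mul_zero, zero_mul, sub_zero, Complex.ofReal_one, mul_one,
    neg_zero] at hlA hlB
  have h2 : (2 * Real.pi * Complex.I : ℂ) = 0 := by
    linear_combination hlA - hlB
  exact Complex.two_pi_I_ne_zero h2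

/-- Unicoherence of closed convex sets, in terms of subsets of the ambient space. -/
theorem unicoherent_of_convex {E : Type*} [NormedAddCommGroup E] [NormedSpace ℝ E]
    {R : Set E} (hR : Convex ℝ R) {A B : Set E} (hA : IsClosed A)
    (hB : IsClosed B) (hAc : IsPreconnected A) (hBc : IsPreconnected B) (hAB : A ∪ B = R) :
    IsPreconnected (A ∩ B) := by
  have hAR : A ⊆ R := hAB ▸ subset_union_left
  have hBR : B ⊆ R := hAB ▸ subset_union_right
  have e1 : IsPreconnected ((↑) ⁻¹' A : Set R) := by
    rw [← Topology.IsInducing.subtypeVal.isPreconnected_image, Subtype.image_preimage_coe,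
      inter_eq_self_of_subset_right hAR]
    exact hAc
  have e2 : IsPreconnected ((↑) ⁻¹' B : Set R) := by
    rw [← Topology.IsInducing.subtypeVal.isPreconnected_image, Subtype.image_preimage_coe,
      inter_eq_self_of_subset_right hBR]
    exact hBc
  have := unicoherent (hasLog_of_convex hR) (hA.preimage continuous_subtype_val)
    (hB.preimage continuous_subtype_val) e1 e2 (by
      ext x
      have hx : (x : E) ∈ A ∪ B := hAB ▸ x.2
      simpa using hx)
  rw [← preimage_inter] at this
  have h3 := this.image _ (continuous_subtype_val.continuousOn)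
  rwa [Subtype.image_preimage_coe, inter_eq_self_of_subset_right
    (inter_subset_left.trans hAR)] at h3

end P198.PlanarTop
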