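import Vale.Agent.P198.Planar.Lift

/-!
# P198, block P1: the graph `K_{3,3}` cannot be drawn in the plane

`no_path_K33` : there are no nine paths `γ n i` from `p i` to `w n` in `ℂ` such that any two
independent edges are disjoint.  The proof is the parity argument with angles: a nonvanishing
continuous function on a square has a continuous logarithm.
-/

open Set Topology unitInterval

namespace P198.PlanarTop

/-- the increment of a continuous logarithm of a nonvanishing function on the interval -/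
noncomputable def incr (g : C(I, ℂ)) : ℂ :=
  open Classical in
  if h : ∃ F : C(I, ℂ), ∀ x, Complex.exp (F x) = g x then h.choose 1 - h.choose 0 else 0

theorem isPreconnected_univ_I : IsPreconnected (univ : Set I) := isPreconnected_univ

theorem incr_eq {g : C(I, ℂ)} (F : C(I, ℂ)) (hF : ∀ x, Complex.exp (F x) = g x) :
    incr g = F 1 - F 0 := by
  have h : ∃ F : C(I, ℂ), ∀ x, Complex.exp (F x) = g x := ⟨F, hF⟩
  unfold incr
  rw [dif_pos h]
  have h1 := log_diff_const (X := I) (A := univ) isPreconnected_univ (F := h.choose) (G := F)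
    h.choose.continuous.continuousOn F.continuous.continuousOn
    (fun x _ => by rw [h.choose_spec x, hF x]) (mem_univ 1) (mem_univ 0)
  linear_combination h1

theorem incr_neg {g g' : C(I, ℂ)} (h : ∃ F : C(I, ℂ), ∀ x, Complex.exp (F x) = g x)
    (hg : ∀ x, g' x = - g x) : incr g' = incr g := by
  obtain ⟨F, hF⟩ := h
  rw [incr_eq F hF]
  rw [incr_eq (F + ContinuousMap.const I (Real.pi * Complex.I)) (fun x => by
    rw [ContinuousMap.add_apply, ContinuousMap.const_apply, Complex.exp_add, hF,
      Complex.exp_pi_mul_I, hg x]; ring)]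
  simp

theorem hasLog_I : HasLog I := hasLog_of_convex (convex_Icc 0 1)

theorem exp_incr {g : C(I, ℂ)} (hg : ∀ x, g x ≠ 0) : Complex.exp (incr g) = g 1 / g 0 := by
  obtain ⟨F, hF⟩ := hasLog_I g hg
  rw [incr_eq F hF, Complex.exp_sub, hF, hF]

theorem hasLog_square : HasLog (I × I) := by
  have : ContractibleSpace I := (convex_Icc (0 : ℝ) 1).contractibleSpace ⟨0, by simp⟩
  have : LocallyPathConnectedSpace I := (convex_Icc (0 : ℝ) 1).locallyPathConnectedSpace
  exact hasLog_of_simplyConnected _

/-- the basic relation on a square -/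
theorem square_rel (a b : C(I, ℂ)) (h : ∀ s t, a s ≠ b t)
    (g1 g2 g3 g4 : C(I, ℂ)) (h1 : ∀ s, g1 s = a s - b 0) (h2 : ∀ t, g2 t = b t - a 1)
    (h3 : ∀ t, g3 t = b t - a 0) (h4 : ∀ s, g4 s = a s - b 1) :
    incr g1 + incr g2 = incr g3 + incr g4 := by
  obtain ⟨F, hF⟩ := hasLog_square ⟨fun z => a z.1 - b z.2, by fun_prop⟩
    (fun z => sub_ne_zero.2 (h z.1 z.2))
  simp only [ContinuousMap.coe_mk] at hF
  let F1 : C(I, ℂ) := ⟨fun s => F (s, 0), by fun_prop⟩
  let F4 : C(I, ℂ) := ⟨fun s => F (s, 1), by fun_prop⟩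
  let F2 : C(I, ℂ) := ⟨fun t => F (1, t), by fun_prop⟩
  let F3 : C(I, ℂ) := ⟨fun t => F (0, t), by fun_prop⟩
  let k2 : C(I, ℂ) := ⟨fun t => a 1 - b t, by fun_prop⟩
  let k3 : C(I, ℂ) := ⟨fun t => a 0 - b t, by fun_prop⟩
  have e1 : incr g1 = F (1, 0) - F (0, 0) := incr_eq F1 (fun s => by
    rw [h1]; exact hF (s, 0))
  have e4 : incr g4 = F (1, 1) - F (0, 1) := incr_eq F4 (fun s => by
    rw [h4]; exact hF (s, 1))
  have k2e : ∀ t, Complex.exp (F2 t) = k2 t := fun t => hF (1, t)
  have k3e : ∀ t, Complex.exp (F3 t) = k3 t := fun t => hF (0, t)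
  have e2 : incr g2 = F (1, 1) - F (1, 0) := by
    rw [incr_neg (g := k2) ⟨F2, k2e⟩ (fun t => by rw [h2]; simp [k2])]
    exact incr_eq F2 k2e
  have e3 : incr g3 = F (0, 1) - F (0, 0) := by
    rw [incr_neg (g := k3) ⟨F3, k3e⟩ (fun t => by rw [h3]; simp [k3])]
    exact incr_eq F3 k3e
  rw [e1, e2, e3, e4]
  ring

theorem exists_int_of_exp {a b : ℂ} (h : Complex.exp a = Complex.exp b) :
    ∃ n : ℤ, a = b + n * (2 * Real.pi * Complex.I) :=
  Complex.exp_eq_exp_iff_exists_int.1 h

/-- choose logarithms of differences of distinct points, antisymmetric up to `π i` -/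
theorem exists_logs (p : Fin 3 → ℂ) (hp : ∀ i j, i ≠ j → p i ≠ p j) :
    ∃ a : Fin 3 → Fin 3 → ℂ, (∀ i j, i ≠ j → Complex.exp (a i j) = p i - p j) ∧
      ∀ i j, i < j → a j i = a i j + Real.pi * Complex.I := by
  refine ⟨fun i j => if i < j then Complex.log (p i - p j) else
    Complex.log (p j - p i) + Real.pi * Complex.I, ?_, ?_⟩
  · intro i j hij
    rcases lt_or_gt_of_ne hij with h | h
    · simp only [h, if_true]
      exact Complex.exp_log (sub_ne_zero.2 (hp i j hij))
    · have h' : ¬ i < j := not_lt.2 h.le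
      simp only [h', if_false]
      rw [Complex.exp_add, Complex.exp_log (sub_ne_zero.2 (hp j i hij.symm)),
        Complex.exp_pi_mul_I]
      ring
  · intro i j hij
    have h' : ¬ j < i := not_lt.2 hij.le
    simp only [hij, h', if_true, if_false]

theorem no_path_K33 (p w : Fin 3 → ℂ) (γ : ∀ n i : Fin 3, Path (p i) (w n))
    (h : ∀ n i m j, n ≠ m → i ≠ j → ∀ s t, γ n i s ≠ γ m j t) : False := by
  -- distinctness of the vertices
  have other : ∀ i : Fin 3, ∃ j : Fin 3, i ≠ j := by decide
  have hpp : ∀ i j, i ≠ j → p i ≠ p j := by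
    intro i j hij e
    have := h 0 i 1 j (by decide) hij 0 0
    rw [(γ 0 i).source, (γ 1 j).source] at this
    exact this e
  have hww : ∀ n m, n ≠ m → w n ≠ w m := by
    intro n m hnm e
    have := h n 0 m 1 hnm (by decide) 1 1
    rw [(γ n 0).target, (γ m 1).target] at this
    exact this e
  have hpw : ∀ i n, p i ≠ w n := by
    intro i n e
    obtain ⟨m, hm⟩ := other n
    obtain ⟨j, hj⟩ := other i
    have := h m i n j hm.symm hj 0 1
    rw [(γ m i).source, (γ n j).target] at this
    exact this e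
  obtain ⟨a, ha, ha'⟩ := exists_logs p hpp
  obtain ⟨b, hb, hb'⟩ := exists_logs w hww
  let d : Fin 3 → Fin 3 → ℂ := fun n i => Complex.log (w n - p i)
  have hd : ∀ n i, Complex.exp (d n i) = w n - p i := fun n i =>
    Complex.exp_log (sub_ne_zero.2 (hpw i n).symm)
  -- the functions
  let g : Fin 3 → Fin 3 → ℂ → C(I, ℂ) := fun n i z => ⟨fun s => γ n i s - z, by fun_prop⟩
  have hg : ∀ n i z s, g n i z s = γ n i s - z := fun n i z s => rfl
  -- increments with respect to `p j`
  have N1 : ∀ j n i, ∃ N : ℤ, i ≠ j → incr (g n i (p j)) = d n j - a i j +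
      N * (2 * Real.pi * Complex.I) := by
    intro j n i
    by_cases hij : i = j
    · exact ⟨0, fun h => absurd hij h⟩
    · obtain ⟨m, hm⟩ := other n
      have hne : ∀ s, g n i (p j) s ≠ 0 := by
        intro s
        rw [hg, sub_ne_zero]
        have := h n i m j hm hij s 0
        rwa [(γ m j).source] at this
      have e1 := exp_incr hne
      have e2 : Complex.exp (d n j - a i j) = g n i (p j) 1 / g n i (p j) 0 := by
        rw [Complex.exp_sub, hd, ha i j hij, hg, hg, (γ n i).source, (γ n i).target]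
      obtain ⟨N, hN⟩ := exists_int_of_exp (e1.trans e2.symm)
      exact ⟨N, fun _ => hN⟩
  have N2 : ∀ m n i, ∃ N : ℤ, n ≠ m → incr (g n i (w m)) = b n m - (d m i + Real.pi * Complex.I) +
      N * (2 * Real.pi * Complex.I) := by
    intro m n i
    by_cases hnm : n = m
    · exact ⟨0, fun h => absurd hnm h⟩
    · obtain ⟨j, hj⟩ := other i
      have hne : ∀ s, g n i (w m) s ≠ 0 := by
        intro s
        rw [hg, sub_ne_zero]
        have := h n i m j hnm hj s 1
        rwa [(γ m j).target] at this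
      have e1 := exp_incr hne
      have e2 : Complex.exp (b n m - (d m i + Real.pi * Complex.I)) =
          g n i (w m) 1 / g n i (w m) 0 := by
        rw [Complex.exp_sub, Complex.exp_add, hd, hb n m hnm, hg, hg, (γ n i).source,
          (γ n i).target, Complex.exp_pi_mul_I]
        congr 1
        ring
      obtain ⟨N, hN⟩ := exists_int_of_exp (e1.trans e2.symm)
      exact ⟨N, fun _ => hN⟩
  choose N1 hN1 using N1
  choose N2 hN2 using N2
  -- the relations
  have rel : ∀ n i m j, n ≠ m → i ≠ j →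
      incr (g n i (p j)) + incr (g m j (w n)) = incr (g m j (p i)) + incr (g n i (w m)) := by
    intro n i m j hnm hij
    exact square_rel (γ n i).toContinuousMap (γ m j).toContinuousMap (h n i m j hnm hij)
      _ _ _ _
      (fun s => by rw [hg]; simp)
      (fun s => by rw [hg]; simp)
      (fun s => by rw [hg]; simp)
      (fun s => by rw [hg]; simp)
  have hpi : (2 * Real.pi * Complex.I : ℂ) ≠ 0 := Complex.two_pi_I_ne_zero
  have R1 : ∀ n i m j, i < j → n < m →
      1 + N1 j n i + N2 n m j - N1 i m j - N2 m n i = 0 := by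
    intro n i m j hij hnm
    have r := rel n i m j hnm.ne hij.ne
    rw [hN1 j n i hij.ne, hN2 n m j hnm.ne', hN1 i m j hij.ne', hN2 m n i hnm.ne,
      ha' i j hij, hb' n m hnm] at r
    have r2 : ((1 + N1 j n i + N2 n m j - N1 i m j - N2 m n i : ℤ) : ℂ) *
        (2 * Real.pi * Complex.I) = 0 := by
      push_cast
      linear_combination r
    have r3 := (mul_eq_zero.1 r2).resolve_right hpi
    exact_mod_cast r3
  have R2 : ∀ n i m j, i < j → m < n →
      N1 j n i + N2 n m j - N1 i m j - N2 m n i = 0 := by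
    intro n i m j hij hnm
    have r := rel n i m j hnm.ne' hij.ne
    rw [hN1 j n i hij.ne, hN2 n m j hnm.ne, hN1 i m j hij.ne', hN2 m n i hnm.ne',
      ha' i j hij, hb' m n hnm] at r
    have r2 : ((N1 j n i + N2 n m j - N1 i m j - N2 m n i : ℤ) : ℂ) *
        (2 * Real.pi * Complex.I) = 0 := by
      push_cast
      linear_combination r
    have r3 := (mul_eq_zero.1 r2).resolve_right hpi
    exact_mod_cast r3
  have l01 : (0 : Fin 3) < 1 := by decide
  have l02 : (0 : Fin 3) < 2 := by decide
  have l12 : (1 : Fin 3) < 2 := by decide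
  have q1 := R1 0 0 1 1 l01 l01
  have q2 := R1 0 0 2 1 l01 l02
  have q3 := R1 1 0 2 1 l01 l12
  have q4 := R1 0 0 1 2 l02 l01
  have q5 := R1 0 0 2 2 l02 l02
  have q6 := R1 1 0 2 2 l02 l12
  have q7 := R1 0 1 1 2 l12 l01
  have q8 := R1 0 1 2 2 l12 l02
  have q9 := R1 1 1 2 2 l12 l12
  have t1 := R2 1 0 0 1 l01 l01
  have t2 := R2 2 0 0 1 l01 l02
  have t3 := R2 2 0 1 1 l01 l12
  have t4 := R2 1 0 0 2 l02 l01
  have t5 := R2 2 0 0 2 l02 l02
  have t6 := R2 2 0 1 2 l02 l12
  have t7 := R2 1 1 0 2 l12 l01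
  have t8 := R2 2 1 0 2 l12 l02
  have t9 := R2 2 1 1 2 l12 l12
  omega

end P198.PlanarTop
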