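import Vale.Agent.P198.Planar.PathK33

/-!
# P198, block P1: no `K_{3,3}` of continua in the sphere

`no_weak_K33_sphere` : there are no connected sets `T n i` (`n i : Fin 3`), compact, containing
points `p i`, `w n`, such that `T n i` and `T m j` are disjoint whenever `n ≠ m` and `i ≠ j`.
-/

open Set Topology unitInterval Metric Module

namespace P198.PlanarTop

/-- the unit sphere of `ℝ³` -/
abbrev S2 : Type := sphere (0 : EuclideanSpace ℝ (Fin 3)) 1

instance factS2 : Fact (finrank ℝ (EuclideanSpace ℝ (Fin 3)) = 2 + 1) := ⟨by simp⟩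

/-- stereographic projection to `ℂ` -/
noncomputable def stC (q : S2) : OpenPartialHomeomorph S2 ℂ :=
  (stereographic' 2 q).trans
    (Complex.orthonormalBasisOneI.repr.symm.toHomeomorph.toOpenPartialHomeomorph)

theorem stC_source (q : S2) : (stC q).source = {q}ᶜ := by
  simp [stC]

theorem stC_target (q : S2) : (stC q).target = univ := by
  simp [stC]

theorem isPreconnected_ball_diff (c : ℂ) {r : ℝ} (hr : 0 < r) :
    IsPreconnected (ball c r \ {c}) := by
  have h0 : IsConnected ({(0 : ℂ)}ᶜ : Set ℂ) :=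
    isConnected_compl_singleton_of_one_lt_rank (by simp) 0
  have h1 := h0.isPreconnected.image (OpenPartialHomeomorph.univBall c r)
    ((OpenPartialHomeomorph.univBall c r).continuousOn.mono (by simp))
  have h2 : (OpenPartialHomeomorph.univBall c r) '' ({(0 : ℂ)}ᶜ : Set ℂ) = ball c r \ {c} := by
    ext y
    constructor
    · rintro ⟨x, hx, rfl⟩
      have hm : OpenPartialHomeomorph.univBall c r x ∈ (OpenPartialHomeomorph.univBall c r).target :=
        (OpenPartialHomeomorph.univBall c r).map_source (by simp)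
      rw [OpenPartialHomeomorph.univBall_target _ hr] at hm
      refine ⟨hm, ?_⟩
      intro hc
      have hc' : OpenPartialHomeomorph.univBall c r x = c := hc
      have : x = 0 := by
        apply (OpenPartialHomeomorph.univBall c r).injOn (by simp) (by simp)
        rw [hc', OpenPartialHomeomorph.univBall_apply_zero]
      exact hx this
    · rintro ⟨hy, hyc⟩
      rw [← OpenPartialHomeomorph.univBall_target _ hr] at hy
      refine ⟨(OpenPartialHomeomorph.univBall c r).symm y, ?_,
        (OpenPartialHomeomorph.univBall c r).right_inv hy⟩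
      intro h0
      apply hyc
      have h0' : (OpenPartialHomeomorph.univBall c r).symm y = 0 := h0
      have := (OpenPartialHomeomorph.univBall c r).right_inv hy
      rw [h0', OpenPartialHomeomorph.univBall_apply_zero] at this
      exact this.symm
  rwa [h2] at h1

theorem diff_singleton_of {X : Type*} [TopologicalSpace X] [T1Space X] {V N : Set X} {q : X}
    (hV : IsOpen V) (hc : IsPreconnected V) (hN : IsOpen N) (hq : q ∈ N) (hNV : N ⊆ V)
    (hNc : IsPreconnected (N \ {q})) : IsPreconnected (V \ {q}) := by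
  have hVq : IsOpen (V \ {q}) := hV.sdiff isClosed_singleton
  -- it suffices to treat the case `N \ {q} ⊆ u`
  have key : ∀ u v : Set X, IsOpen u → IsOpen v → V \ {q} ⊆ u ∪ v → (V \ {q}) ∩ (u ∩ v) = ∅ →
      N \ {q} ⊆ u → V \ {q} ⊆ u := by
    intro u v hu hv huv hdisj hNu
    rw [isPreconnected_iff_subset_of_disjoint] at hc
    have c1 : V ⊆ (u ∩ (V \ {q}) ∪ N) ∪ (v ∩ (V \ {q})) := by
      intro x hx
      by_cases hxq : x = q
      · exact Or.inl (Or.inr (hxq ▸ hq))
      · rcases huv ⟨hx, hxq⟩ with h | h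
        · exact Or.inl (Or.inl ⟨h, hx, hxq⟩)
        · exact Or.inr ⟨h, hx, hxq⟩
    have c2 : V ∩ ((u ∩ (V \ {q}) ∪ N) ∩ (v ∩ (V \ {q}))) = ∅ := by
      rw [eq_empty_iff_forall_notMem] at hdisj ⊢
      rintro x ⟨hx, hx1, hx2⟩
      rcases hx1 with h | h
      · exact hdisj x ⟨hx2.2, h.1, hx2.1⟩
      · exact hdisj x ⟨hx2.2, hNu ⟨h, hx2.2.2⟩, hx2.1⟩
    rcases hc (u ∩ (V \ {q}) ∪ N) (v ∩ (V \ {q})) ((hu.inter hVq).union hN) (hv.inter hVq) c1 c2
      with h | h
    · intro x hx
      rcases h hx.1 with h' | h'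
      · exact h'.1
      · exact hNu ⟨h', hx.2⟩
    · exact absurd rfl (h (hNV hq)).2.2
  rw [isPreconnected_iff_subset_of_disjoint]
  intro u v hu hv huv hdisj
  have hNsub : N \ {q} ⊆ V \ {q} := sdiff_subset_sdiff_left hNV
  rw [isPreconnected_iff_subset_of_disjoint] at hNc
  rcases hNc u v hu hv (hNsub.trans huv) (by
    rw [eq_empty_iff_forall_notMem] at hdisj ⊢
    exact fun x hx => hdisj x ⟨hNsub hx.1, hx.2⟩) with h | h
  · exact Or.inl (key u v hu hv huv hdisj h)
  · refine Or.inr (key v u hv hu ?_ ?_ h)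
    · rwa [union_comm]
    · rwa [inter_comm v u]

theorem isPreconnected_diff_singleton_S2 {V : Set S2} (hV : IsOpen V) (hc : IsPreconnected V)
    (q : S2) : IsPreconnected (V \ {q}) := by
  by_cases hq : q ∈ V
  · obtain ⟨q', hq'⟩ : ∃ q' : S2, q' ≠ q := by
      refine ⟨-q, ?_⟩
      intro h
      exact ne_neg_of_mem_unit_sphere ℝ q (by rw [h])
    set φ := stC q' with hφ
    have hqs : q ∈ φ.source := by rw [hφ, stC_source]; exact fun h => hq' h.symm
    have hopen : IsOpen (φ.symm ⁻¹' V) := by
      have := φ.symm.continuousOn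
      rw [OpenPartialHomeomorph.symm_source, hφ, stC_target, continuousOn_univ] at this
      exact hV.preimage this
    have hmem : φ q ∈ φ.symm ⁻¹' V := by
      rw [mem_preimage, φ.left_inv hqs]; exact hq
    obtain ⟨r, hr, hball⟩ := Metric.isOpen_iff.1 hopen _ hmem
    have htgt : ball (φ q) r ⊆ φ.target := by rw [hφ, stC_target]; exact subset_univ _
    have hNopen : IsOpen (φ.symm '' ball (φ q) r) :=
      φ.isOpen_image_symm_of_subset_target isOpen_ball htgt
    refine diff_singleton_of hV hc hNopen ⟨φ q, mem_ball_self hr, φ.left_inv hqs⟩ ?_ ?_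
    · rintro _ ⟨z, hz, rfl⟩
      exact hball hz
    · have himg : φ.symm '' ball (φ q) r \ {q} = φ.symm '' (ball (φ q) r \ {φ q}) := by
        ext x
        constructor
        · rintro ⟨⟨z, hz, rfl⟩, hx⟩
          refine ⟨z, ⟨hz, ?_⟩, rfl⟩
          intro h
          have h' : z = φ q := h
          apply hx
          rw [mem_singleton_iff, h', φ.left_inv hqs]
        · rintro ⟨z, ⟨hz, hzq⟩, rfl⟩
          refine ⟨⟨z, hz, rfl⟩, ?_⟩
          intro h
          have h' : φ.symm z = q := h
          apply hzq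
          rw [mem_singleton_iff, ← h', φ.right_inv (htgt hz)]
      rw [himg]
      refine (isPreconnected_ball_diff _ hr).image _ (φ.symm.continuousOn.mono ?_)
      rw [OpenPartialHomeomorph.symm_source]
      exact sdiff_subset.trans htgt
  · rwa [sdiff_singleton_eq_self hq]

/-- In a proper open set of the sphere: two points of a connected open set `V` different from `q`
can be joined by a path in the plane, after stereographic projection from `q`. -/
theorem exists_path_stC {V : Set S2} (hV : IsOpen V) (hc : IsPreconnected V) (q x y : S2)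
    (hx : x ∈ V) (hy : y ∈ V) (hxq : x ≠ q) (hyq : y ≠ q) :
    ∃ γ : Path (stC q x) (stC q y), ∀ t, ∃ z ∈ V, z ≠ q ∧ stC q z = γ t := by
  have h1 : IsPreconnected (V \ {q}) := isPreconnected_diff_singleton_S2 hV hc q
  have hsub : V \ {q} ⊆ (stC q).source := by
    rw [stC_source]; exact fun z hz => hz.2
  have h2 : IsOpen (stC q '' (V \ {q})) :=
    (stC q).isOpen_image_of_subset_source (hV.sdiff isClosed_singleton) hsub
  have h3 : IsConnected (stC q '' (V \ {q})) :=
    ⟨⟨_, mem_image_of_mem _ ⟨hx, hxq⟩⟩, h1.image _ ((stC q).continuousOn.mono hsub)⟩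
  have h4 : IsPathConnected (stC q '' (V \ {q})) := h2.isConnected_iff_isPathConnected.1 h3
  have h5 := h4.joinedIn _ (mem_image_of_mem _ ⟨hx, hxq⟩) _ (mem_image_of_mem _ ⟨hy, hyq⟩)
  refine ⟨h5.somePath, fun t => ?_⟩
  obtain ⟨z, hz, hz'⟩ := h5.somePath_mem t
  exact ⟨z, hz.1, hz.2, hz'⟩

theorem no_weak_K33_sphere (p w : Fin 3 → S2) (T : Fin 3 → Fin 3 → Set S2)
    (hcomp : ∀ n i, IsCompact (T n i)) (hconn : ∀ n i, IsPreconnected (T n i))
    (hp : ∀ n i, p i ∈ T n i) (hw : ∀ n i, w n ∈ T n i)
    (hdisj : ∀ n i m j, n ≠ m → i ≠ j → Disjoint (T n i) (T m j)) : False := by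
  -- uniform disjoint thickenings
  have hev : ∀ᶠ δ in 𝓝[>] (0 : ℝ), ∀ n i m j, n ≠ m → i ≠ j →
      Disjoint (thickening δ (T n i)) (thickening δ (T m j)) := by
    rw [Filter.eventually_all]; intro n
    rw [Filter.eventually_all]; intro i
    rw [Filter.eventually_all]; intro m
    rw [Filter.eventually_all]; intro j
    by_cases h : n ≠ m ∧ i ≠ j
    · obtain ⟨δ, hδ, hd⟩ := (hdisj n i m j h.1 h.2).exists_thickenings (hcomp n i)
        (hcomp m j).isClosed
      filter_upwards [Ioo_mem_nhdsGT hδ] with ε hε _ _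
      exact hd.mono (thickening_mono hε.2.le _) (thickening_mono hε.2.le _)
    · refine Filter.Eventually.of_forall fun δ h1 h2 => absurd ⟨h1, h2⟩ h
  obtain ⟨δ, hδ, hδ0⟩ := (hev.and self_mem_nhdsWithin).exists
  have hδ0' : 0 < δ := hδ0
  -- a point off everything
  obtain ⟨q, hq⟩ : ∃ q : S2, q ∉ (range p ∪ range w) := by
    have hfin : (range p ∪ range w).Finite := (finite_range p).union (finite_range w)
    have hinf : Infinite S2 := by
      have h1 : Infinite ℂ := inferInstance
      let q0 : S2 := p 0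
      refine Infinite.of_injective (fun z : ℂ => (stC q0).symm z) ?_
      intro z z' h
      exact (stC q0).symm.injOn (by simp [stC_target]) (by simp [stC_target]) h
    exact hfin.exists_notMem
  have hqp : ∀ i, p i ≠ q := fun i h => hq (Or.inl ⟨i, h⟩)
  have hqw : ∀ n, w n ≠ q := fun n h => hq (Or.inr ⟨n, h⟩)
  have hlc : LocallyConnectedSpace S2 := ChartedSpace.locallyConnectedSpace
    (EuclideanSpace ℝ (Fin 2)) S2
  let V : Fin 3 → Fin 3 → Set S2 := fun n i => connectedComponentIn (thickening δ (T n i)) (p i)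
  have hself : ∀ n i, T n i ⊆ thickening δ (T n i) := fun n i => self_subset_thickening hδ0' _
  have hVo : ∀ n i, IsOpen (V n i) := fun n i => isOpen_thickening.connectedComponentIn
  have hVc : ∀ n i, IsPreconnected (V n i) := fun n i => isPreconnected_connectedComponentIn
  have hTV : ∀ n i, T n i ⊆ V n i := fun n i =>
    (hconn n i).subset_connectedComponentIn (hp n i) (hself n i)
  have hVd : ∀ n i m j, n ≠ m → i ≠ j → Disjoint (V n i) (V m j) := fun n i m j h1 h2 =>
    (hδ n i m j h1 h2).mono (connectedComponentIn_subset _ _) (connectedComponentIn_subset _ _)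
  have hγ : ∀ n i, ∃ γ : Path (stC q (p i)) (stC q (w n)), ∀ t, ∃ z ∈ V n i, z ≠ q ∧
      stC q z = γ t := fun n i => exists_path_stC (hVo n i) (hVc n i) q (p i) (w n)
        (hTV n i (hp n i)) (hTV n i (hw n i)) (hqp i) (hqw n)
  choose γ hγ using hγ
  refine no_path_K33 (fun i => stC q (p i)) (fun n => stC q (w n)) γ ?_
  intro n i m j hnm hij s t h
  obtain ⟨z, hz, hzq, hzγ⟩ := hγ n i s
  obtain ⟨z', hz', hzq', hzγ'⟩ := hγ m j t
  have hzz : z = z' := by
    apply (stC q).injOn
    · rw [stC_source]; exact hzq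
    · rw [stC_source]; exact hzq'
    · rw [hzγ, hzγ', h]
  exact disjoint_left.1 (hVd n i m j hnm hij) hz (hzz ▸ hz')

end P198.PlanarTop
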